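import Vale.Agent.P133OE.Cut
import Vale.Agent.P133OF.Defs

/-! P133O, CEN (i): the row LIFT. -/

namespace Vale.Agent.P133OE

open Finset

universe u

section Core

variable {A : Type*} [NonUnitalCStarAlgebra A] [PartialOrder A] [StarOrderedRing A]
variable {Q : Type*} [NonUnitalCStarAlgebra Q] [PartialOrder Q] [StarOrderedRing Q]

/-- a positive `b` outside the kernel on whose support `h` acts as `1` and the `E k` are small -/
theorem exists_b (q : A →⋆ₙₐ[ℂ] Q) {h : A} (h0 : 0 ≤ h) (h1 : ‖q h‖ = 1) {ι : Type*}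
    [Fintype ι] (E : ι → A) {ε η : ℝ} (hε : 0 ≤ ε) (hη : 0 < η) (hη1 : η ≤ 1)
    (hE : ∀ k, ‖q (E k)‖ ≤ ε) :
    ∃ b : A, 0 ≤ b ∧ q b ≠ 0 ∧ star (h * b - b) * (h * b - b) ≤ η • (star b * b) ∧
      ∀ k, star (E k * b) * (E k * b) ≤ (ε ^ 2 + η) • (star b * b) := by
  have hs : IsSelfAdjoint h := IsSelfAdjoint.of_nonneg h0
  set j : A := ∑ k, cut (ε ^ 2) (star (E k) * E k) with hj
  have hj0 : 0 ≤ j := Finset.sum_nonneg fun k _ => cut_nonneg _ _
  have hqj : q j = 0 := by
    rw [hj, map_sum]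
    refine Finset.sum_eq_zero fun k _ => ?_
    rw [map_cut q (sq_nonneg ε) (IsSelfAdjoint.star_mul_self _), map_mul, map_star]
    refine cut_eq_zero (IsSelfAdjoint.star_mul_self _) ?_
    rw [CStarRing.norm_star_mul_self, sq]
    exact mul_self_le_mul_self (norm_nonneg _) (hE k)
  set s : A := (2 : ℝ) • h - h * h - j with hsd
  have hhh : IsSelfAdjoint (h * h) := by
    have := IsSelfAdjoint.star_mul_self h
    rwa [hs.star_eq] at this
  have hss : IsSelfAdjoint s :=
    (((IsSelfAdjoint.all (2 : ℝ)).smul hs).sub hhh).sub (IsSelfAdjoint.of_nonneg hj0)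
  have hq2 : q ((2 : ℝ) • h) = (2 : ℝ) • q h := by rw [two_smul, two_smul, map_add]
  have hqh0 : 0 ≤ q h := map_nonneg q h0
  set b : A := cut (1 - η) s with hb
  have hbs : star b = b := (cut_sa _ _).star_eq
  have hkey : star (h * b - b) * (h * b - b) + star b * j * b ≤ η • (star b * b) := by
    have h2 := cut_mul_ge (r := 1 - η) (by linarith) hss
    rw [← hb] at h2
    have h3 : η • (star b * b) - (star (h * b - b) * (h * b - b) + star b * j * b) =
        b * s * b - (1 - η) • (b * b) := by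
      rw [hsd]
      simp only [star_sub, star_mul, hbs, hs.star_eq, sub_mul, mul_sub, two_smul, mul_add, add_mul,
        sub_smul, one_smul, mul_assoc]
      abel
    exact sub_nonneg.1 (h3 ▸ sub_nonneg.2 h2)
  have hA := star_mul_self_nonneg (h * b - b)
  have hB := star_left_conjugate_nonneg hj0 b
  refine ⟨b, cut_nonneg _ _, ?_, (le_add_of_nonneg_right hB).trans hkey, fun k => ?_⟩
  · rw [hb, map_cut q (by linarith) hss, hsd, map_sub, map_sub, hqj, sub_zero, hq2, map_mul]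
    exact cut_ne_zero hqh0 h1 hη hη1
  · have h2 := le_cut (sq_nonneg ε) (IsSelfAdjoint.star_mul_self (E k)) b
    have h3 : cut (ε ^ 2) (star (E k) * E k) ≤ j :=
      Finset.single_le_sum (f := fun k => cut (ε ^ 2) (star (E k) * E k))
        (fun k _ => cut_nonneg _ _) (Finset.mem_univ k)
    have h4 := star_left_conjugate_le_conjugate h3 b
    have h5 : star (E k * b) * (E k * b) = star b * (star (E k) * E k) * b := by
      simp only [star_mul, mul_assoc]
    rw [h5, add_smul]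
    exact h2.trans (add_le_add le_rfl (h4.trans ((le_add_of_nonneg_left hA).trans hkey)))

/-- LIFT for an arbitrary star homomorphism and arbitrary lifts -/
theorem lift_core (q : A →⋆ₙₐ[ℂ] Q) (F : Finset A) {n : ℕ} (y : Fin n → A)
    (hz1 : ‖∑ i, star (q (y i)) * q (y i)‖ = 1) (ψ : A → Fin n → Fin n → ℂ) {ε : ℝ} (hε : 0 < ε)
    (hψ : ∀ x ∈ F, ∀ i i', ‖star (q (y i)) * q x * q (y i') -
      ψ x i i' • ∑ p, star (q (y p)) * q (y p)‖ ≤ ε) :
    ∃ b : A, 0 ≤ b ∧ q b ≠ 0 ∧ ∀ x ∈ F, ∀ i i',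
      star (star (y i) * x * y i' * b - ψ x i i' • b) *
        (star (y i) * x * y i' * b - ψ x i i' • b) ≤ ((2 * ε) ^ 2) • (star b * b) := by
  classical
  set h : A := ∑ p, star (y p) * y p with hh
  have h0 : 0 ≤ h := Finset.sum_nonneg fun p _ => star_mul_self_nonneg _
  have hqh : q h = ∑ p, star (q (y p)) * q (y p) := by
    rw [hh, map_sum]
    exact Finset.sum_congr rfl fun p _ => by rw [map_mul, map_star]
  set K : ℝ := ∑ k : F × Fin n × Fin n, ‖ψ k.1 k.2.1 k.2.2‖ ^ 2 with hK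
  have hK0 : 0 ≤ K := Finset.sum_nonneg fun k _ => sq_nonneg _
  set η : ℝ := min 1 (ε ^ 2 / (1 + K)) with hη
  have hη0 : 0 < η := lt_min one_pos (by positivity)
  have hηK : η * (1 + K) ≤ ε ^ 2 := (le_div_iff₀ (by positivity)).1 (min_le_right _ _)
  obtain ⟨b, hb0, hqb, hb1, hb2⟩ := exists_b q h0 (by rw [hqh, hz1])
    (fun k : F × Fin n × Fin n => star (y k.2.1) * (k.1 : A) * y k.2.2 - ψ k.1 k.2.1 k.2.2 • h)
    hε.le hη0 (min_le_left _ _) (fun k => by
      rw [map_sub, map_mul, map_mul, map_star, map_smul, hqh]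
      exact hψ _ k.1.2 _ _)
  refine ⟨b, hb0, hqb, fun x hx i i' => ?_⟩
  have h2 := hb2 (⟨x, hx⟩, i, i')
  simp only at h2
  have h3 : star (y i) * x * y i' * b - ψ x i i' • b =
      (star (y i) * x * y i' - ψ x i i' • h) * b + ψ x i i' • (h * b - b) := by
    rw [sub_mul, smul_mul_assoc, smul_sub]
    abel
  have h4 : star (ψ x i i' • (h * b - b)) * (ψ x i i' • (h * b - b)) =
      (‖ψ x i i'‖ ^ 2) • (star (h * b - b) * (h * b - b)) := by
    rw [star_smul, smul_mul_assoc, mul_smul_comm, smul_smul, ← Complex.coe_smul,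
      Complex.star_def, Complex.conj_mul', Complex.ofReal_pow]
  have h5 : ‖ψ x i i'‖ ^ 2 ≤ K :=
    Finset.single_le_sum (f := fun k : F × Fin n × Fin n => ‖ψ k.1 k.2.1 k.2.2‖ ^ 2)
      (fun k _ => sq_nonneg _) (Finset.mem_univ (⟨x, hx⟩, i, i'))
  rw [h3]
  refine (add_sq_le _ _).trans ?_
  rw [h4]
  have h6 := smul_le_smul_of_nonneg_left hb1 (sq_nonneg ‖ψ x i i'‖)
  refine (add_le_add (smul_le_smul_of_nonneg_left h2 zero_le_two)
    (smul_le_smul_of_nonneg_left h6 zero_le_two)).trans ?_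
  rw [smul_smul, smul_smul, smul_smul, ← add_smul]
  refine smul_le_smul_of_nonneg_right ?_ (star_mul_self_nonneg b)
  nlinarith [mul_le_mul_of_nonneg_right h5 hη0.le]

end Core

section Rel

open Vale.Agent.P133OF

variable {A : Type u} [NonUnitalCStarAlgebra A] [PartialOrder A] [StarOrderedRing A]

theorem dfc_eq {n : ℕ} (ψ : Fin n → Fin n → ℂ) {b : A} (y c : Fin n → A) (x : A) :
    dfc ψ b y c x =
      ∑ i, ∑ j, star (b * c i) * ((star (y i) * x * y j * b - ψ i j • b) * c j) := by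
  unfold dfc zz nn
  rw [star_sum, Finset.sum_mul, Finset.sum_mul, ← Finset.sum_sub_distrib]
  refine Finset.sum_congr rfl fun i _ => ?_
  rw [Finset.mul_sum, ← Finset.sum_sub_distrib]
  refine Finset.sum_congr rfl fun j _ => ?_
  simp only [star_mul, sub_mul, mul_sub, smul_mul_assoc, mul_smul_comm, mul_assoc]

theorem sum_cross_le {n : ℕ} {b : A} (c : Fin n → A) (R : Fin n → Fin n → A) {ρ : ℝ}
    (hρ : 0 < ρ) (hR : ∀ i j, star (R i j) * R i j ≤ (ρ ^ 2) • (star b * b)) :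
    ∑ i, ∑ j, star (b * c i) * (R i j * c j) + star (∑ i, ∑ j, star (b * c i) * (R i j * c j)) ≤
      (2 * n * ρ) • bud b c := by
  have h1 : ∀ i j, star (b * c i) * (R i j * c j) + star (star (b * c i) * (R i j * c j)) ≤
      ρ • (star (b * c i) * (b * c i)) + ρ • (star (b * c j) * (b * c j)) := by
    intro i j
    rw [star_mul (star (b * c i)), star_star]
    refine cross_le hρ ?_
    have h2 := star_left_conjugate_le_conjugate (hR i j) (c j)
    simpa only [star_mul, mul_smul_comm, smul_mul_assoc, mul_assoc] using h2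
  rw [star_sum, ← Finset.sum_add_distrib]
  have h2 : (2 * n * ρ) • bud b c = ∑ i : Fin n, ∑ j : Fin n,
      (ρ • (star (b * c i) * (b * c i)) + ρ • (star (b * c j) * (b * c j))) := by
    unfold bud
    simp only [Finset.sum_add_distrib, Finset.sum_const, Finset.card_univ, Fintype.card_fin,
      ← Finset.smul_sum, ← Nat.cast_smul_eq_nsmul ℝ, smul_smul, ← add_smul]
    congr 1
    ring
  rw [h2]
  refine Finset.sum_le_sum fun i _ => ?_
  rw [star_sum, ← Finset.sum_add_distrib]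
  exact Finset.sum_le_sum fun j _ => h1 i j

theorem relExc_of_sq (F : Finset A) {n : ℕ} {b : A} (y : Fin n → A) (ψ : A → Fin n → Fin n → ℂ)
    {ρ : ℝ} (hρ : 0 < ρ) (h : ∀ x ∈ F, ∀ i i', star (star (y i) * x * y i' * b - ψ x i i' • b) *
      (star (y i) * x * y i' * b - ψ x i i' • b) ≤ (ρ ^ 2) • (star b * b)) :
    RelExc F b y ψ (2 * n * ρ) := by
  intro x hx c
  rw [dfc_eq]
  refine ⟨sum_cross_le c _ hρ (h x hx), ?_⟩
  have h1 := sum_cross_le c (fun i j => -(star (y i) * x * y j * b - ψ x i j • b)) hρ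
    (fun i j => by rw [star_neg, neg_mul_neg]; exact h x hx i j)
  simpa only [neg_mul, mul_neg, Finset.sum_neg_distrib, star_neg, ← neg_add] using h1

theorem relExc_mono {F : Finset A} {n : ℕ} {b : A} {y : Fin n → A} {ψ : A → Fin n → Fin n → ℂ}
    {κ κ' : ℝ} (hκ : κ ≤ κ') (h : RelExc F b y ψ κ) : RelExc F b y ψ κ' := by
  intro x hx c
  have h1 : κ • bud b c ≤ κ' • bud b c :=
    smul_le_smul_of_nonneg_right hκ (Finset.sum_nonneg fun i _ => star_mul_self_nonneg _)
  exact ⟨(h x hx c).1.trans h1, (h x hx c).2.trans h1⟩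

/-- LIFT for an arbitrary star homomorphism, arbitrary lifts, constant `4 n ε` -/
theorem relExc_of_hom {Q : Type*} [NonUnitalCStarAlgebra Q] [PartialOrder Q] [StarOrderedRing Q]
    (q : A →⋆ₙₐ[ℂ] Q) (F : Finset A) {n : ℕ} (y : Fin n → A)
    (hz1 : ‖∑ i, star (q (y i)) * q (y i)‖ = 1) (ψ : A → Fin n → Fin n → ℂ) {ε : ℝ} (hε : 0 < ε)
    (hψ : ∀ x ∈ F, ∀ i i', ‖star (q (y i)) * q x * q (y i') -
      ψ x i i' • ∑ p, star (q (y p)) * q (y p)‖ ≤ ε) :
    ∃ b : A, 0 ≤ b ∧ q b ≠ 0 ∧ RelExc F b y ψ (2 * n * (2 * ε)) := by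
  obtain ⟨b, h1, h2, h3⟩ := lift_core q F y hz1 ψ hε hψ
  exact ⟨b, h1, h2, relExc_of_sq F y ψ (by positivity) h3⟩

end Rel

open Vale.Agent.P094.H724 in
/-- **The row LIFT.** -/
theorem lift : Vale.Agent.P133OF.LIFT.{u} := by
  intro A _ _ _ I hIc hI F R hR _ n z hz hz1 ψ ε hε _ hψ
  choose y hy using fun i => (mem_qIdeal I hIc hI).1 (hz i)
  obtain ⟨b, h1, h2, h3⟩ := relExc_of_hom (qI I hIc hI) F y (by simpa only [hy] using hz1) ψ hε
    (by simpa only [hy] using hψ)
  refine ⟨b, y, h1, fun hb => h2 ((qI_eq_zero I hIc hI).2 hb), relExc_mono ?_ h3⟩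
  have h4 : (0 : ℝ) ≤ n * ε := by positivity
  nlinarith [mul_nonneg h4 hR]

end Vale.Agent.P133OE
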