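import Mathlib

/-! P133O, CEN (i): lifting an excision from a quotient to a relative excision. -/

namespace Vale.Agent.P133OE

open Finset

section Cut

variable {A : Type*} [NonUnitalCStarAlgebra A]

/-- the element `(T - r)_+` -/
noncomputable def cut (r : ℝ) (T : A) : A := cfcₙ (fun t : ℝ => max (t - r) 0) T

theorem cut_f0 {r : ℝ} (hr : 0 ≤ r) : (fun t : ℝ => max (t - r) 0) 0 = 0 := by
  show max (0 - r) 0 = 0
  exact max_eq_right (by linarith)

theorem cut_sa (r : ℝ) (T : A) : IsSelfAdjoint (cut r T) := cfcₙ_predicate _ _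

theorem map_cut {Q : Type*} [NonUnitalCStarAlgebra Q] (q : A →⋆ₙₐ[ℂ] Q) {r : ℝ} (hr : 0 ≤ r)
    {T : A} (hT : IsSelfAdjoint T) : q (cut r T) = cut r (q T) :=
  q.map_cfcₙ (fun t : ℝ => max (t - r) 0) T (by fun_prop) (cut_f0 hr)
    (AddMonoidHomClass.continuous_of_bound q 1 fun a => by
      rw [one_mul]; exact NonUnitalStarAlgHom.norm_apply_le q a) hT (hT.map q)

theorem cut_eq_zero {r : ℝ} {T : A} (hT : IsSelfAdjoint T) (h : ‖T‖ ≤ r) : cut r T = 0 := by
  unfold cut
  rw [← cfcₙ_const_zero ℝ T]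
  refine cfcₙ_congr fun x hx => ?_
  have h1 := norm_apply_le_norm_cfcₙ (fun t : ℝ => t) T hx (by fun_prop) rfl hT
  rw [cfcₙ_id' ℝ T hT, Real.norm_eq_abs] at h1
  exact max_eq_right (by linarith [le_abs_self x])

variable [PartialOrder A] [StarOrderedRing A]

theorem cut_nonneg (r : ℝ) (T : A) : 0 ≤ cut r T := cfcₙ_nonneg fun _ _ => le_max_right _ _

theorem cut_ne_zero {h : A} (h0 : 0 ≤ h) (h1 : ‖h‖ = 1) {η : ℝ} (hη : 0 < η) (hη1 : η ≤ 1) :
    cut (1 - η) ((2 : ℝ) • h - h * h) ≠ 0 := by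
  have hs : IsSelfAdjoint h := IsSelfAdjoint.of_nonneg h0
  obtain ⟨x, hx, hx1⟩ := (IsGreatest.norm_cfcₙ (fun t : ℝ => t) h (by fun_prop) rfl hs).1
  simp only [cfcₙ_id' ℝ h hs, h1] at hx1
  have hx0 : 0 ≤ x := quasispectrum_nonneg_of_nonneg h h0 x hx
  rw [Real.norm_of_nonneg hx0] at hx1
  have h2 : (2 : ℝ) • h - h * h = cfcₙ (fun t : ℝ => 2 * t - t * t) h := by
    rw [cfcₙ_sub (fun t : ℝ => 2 * t) (fun t : ℝ => t * t) h, cfcₙ_const_mul_id 2 h hs,
      cfcₙ_mul (fun t : ℝ => t) (fun t : ℝ => t) h, cfcₙ_id' ℝ h hs]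
  intro h3
  unfold cut at h3
  rw [h2, ← cfcₙ_comp' (fun t : ℝ => max (t - (1 - η)) 0) (fun t : ℝ => 2 * t - t * t) h
    (by fun_prop) (cut_f0 (by linarith)) (by fun_prop) (by simp) hs] at h3
  have h4 := norm_apply_le_norm_cfcₙ (fun t : ℝ => max (2 * t - t * t - (1 - η)) 0) h hx
    (by fun_prop) (by simp only [mul_zero, sub_zero]; exact cut_f0 (by linarith)) hs
  rw [h3, norm_zero, hx1, Real.norm_of_nonneg (le_max_right _ _)] at h4
  have h5 := le_max_left (2 * (1 : ℝ) - 1 * 1 - (1 - η)) 0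
  linarith

theorem cut_mul_ge {r : ℝ} (hr : 0 ≤ r) {s : A} (hs : IsSelfAdjoint s) :
    r • (cut r s * cut r s) ≤ cut r s * s * cut r s := by
  have h0 := cut_f0 hr
  have h1 : cut r s * s * cut r s =
      cfcₙ (fun t : ℝ => max (t - r) 0 * t * max (t - r) 0) s := by
    rw [cfcₙ_mul (fun t : ℝ => max (t - r) 0 * t) (fun t : ℝ => max (t - r) 0) s (by fun_prop)
      (by simp) (by fun_prop) h0, cfcₙ_mul (fun t : ℝ => max (t - r) 0) (fun t : ℝ => t) s
      (by fun_prop) h0 (by fun_prop) rfl, cfcₙ_id' ℝ s hs]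
    rfl
  have h2 : r • (cut r s * cut r s) =
      cfcₙ (fun t : ℝ => r * (max (t - r) 0 * max (t - r) 0)) s := by
    rw [cfcₙ_const_mul r (fun t : ℝ => max (t - r) 0 * max (t - r) 0) s (by fun_prop)
      (by simp only [h0, mul_zero]), cfcₙ_mul (fun t : ℝ => max (t - r) 0)
      (fun t : ℝ => max (t - r) 0) s (by fun_prop) h0 (by fun_prop) h0]
    rfl
  rw [h1, h2]
  refine cfcₙ_mono (fun x _ => ?_) (by fun_prop) (by fun_prop) (by simp only [h0, mul_zero])
    (by simp only [h0, mul_zero])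
  rcases le_total (x - r) 0 with h | h
  · rw [max_eq_right h]; simp
  · rw [max_eq_left h]; nlinarith [mul_nonneg h (mul_nonneg h h)]

theorem le_cut {r : ℝ} (hr : 0 ≤ r) {T : A} (hT : IsSelfAdjoint T) (b : A) :
    star b * T * b ≤ r • (star b * b) + star b * cut r T * b := by
  have h0 := cut_f0 hr
  have hT' : IsSelfAdjoint (T : Unitization ℂ A) := hT.inr ℂ
  have h1 : (T : Unitization ℂ A) ≤ r • (1 : Unitization ℂ A) + (cut r T : A) := by
    unfold cut
    rw [Unitization.real_cfcₙ_eq_cfc_inr T (fun t : ℝ => max (t - r) 0) h0, ← Algebra.algebraMap_eq_smul_one,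
      ← cfc_const_add r (fun t : ℝ => max (t - r) 0) (T : Unitization ℂ A) (by fun_prop) hT']
    refine le_trans (le_of_eq (cfc_id' ℝ (T : Unitization ℂ A) hT').symm) ?_
    refine cfc_mono (fun x _ => ?_) (by fun_prop) (by fun_prop)
    linarith [le_max_left (x - r) 0]
  have h2 := star_left_conjugate_le_conjugate h1 (b : Unitization ℂ A)
  have hb1 : IsSelfAdjoint (star b * T * b) := hT.conjugate' b
  have hb2 : IsSelfAdjoint (r • (star b * b) + star b * cut r T * b) :=
    ((IsSelfAdjoint.all r).smul (IsSelfAdjoint.star_mul_self b)).add ((cut_sa r T).conjugate' b)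
  rw [← Unitization.inr_le_iff _ _ hb1 hb2]
  simp only [Unitization.inr_add, Unitization.inr_mul, Unitization.inr_star, Unitization.inr_smul]
  simpa only [mul_add, add_mul, mul_smul_comm, smul_mul_assoc, mul_one] using h2

/-- `u* w + w* u ≤ ρ u* u + ρ⁻¹ w* w` in the form needed -/
theorem cross_le {u w v : A} {ρ : ℝ} (hρ : 0 < ρ) (h : star w * w ≤ (ρ ^ 2) • v) :
    star u * w + star w * u ≤ ρ • (star u * u) + ρ • v := by
  have h1 := star_mul_self_nonneg (ρ • u - w)
  have h2 : star (ρ • u - w) * (ρ • u - w) =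
      (ρ ^ 2) • (star u * u) + star w * w - ρ • (star u * w + star w * u) := by
    simp only [star_sub, star_smul, star_trivial, sub_mul, mul_sub, smul_mul_assoc, mul_smul_comm,
      smul_smul, smul_add, smul_sub, sq]
    abel
  rw [h2] at h1
  have h3 : ρ • (star u * w + star w * u) ≤ ρ • (ρ • (star u * u) + ρ • v) := by
    rw [smul_add ρ (ρ • (star u * u)), smul_smul, smul_smul, ← sq]
    exact (sub_nonneg.1 h1).trans (add_le_add le_rfl h)
  have h4 := smul_le_smul_of_nonneg_left h3 (inv_nonneg.2 hρ.le)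
  rwa [smul_smul, smul_smul, inv_mul_cancel₀ hρ.ne', one_smul, one_smul] at h4

theorem add_sq_le (u w : A) :
    star (u + w) * (u + w) ≤ (2 : ℝ) • (star u * u) + (2 : ℝ) • (star w * w) := by
  have h1 := star_mul_self_nonneg (u - w)
  have h2 : (2 : ℝ) • (star u * u) + (2 : ℝ) • (star w * w) - star (u + w) * (u + w) =
      star (u - w) * (u - w) := by
    simp only [star_sub, star_add, sub_mul, mul_sub, add_mul, mul_add, two_smul]
    abel
  exact sub_nonneg.1 (h2 ▸ h1)

end Cut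

end Vale.Agent.P133OE
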